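import Mathlib

/-!
# P042: large sets without cube differences

For `h(x) = x ^ 3` we construct, for every `N`, a subset of `{1, ..., N}` of size at least
`c * N ^ γ`, `γ = (2 + log 14 / log 91) / 3 = 0.8616...`, no two of whose elements differ by a
positive cube. The construction is of Ruzsa type: write numbers in base `91 ^ 3` and only allow
base digits whose residue modulo `91` lies in a set `D` of `14` residues no two of which differ by
a cube residue modulo `91`.
-/

namespace Vale.Agent.Results.P042.CubeDifferences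

open Finset

/-- Block digits: the numbers `d + m * e` with `d ∈ D` and `e < m ^ (k - 1)`. -/
def blockSet (k m : ℕ) (D : Finset ℕ) : Finset ℕ :=
  (D ×ˢ range (m ^ (k - 1))).image (fun p => p.1 + m * p.2)

/-- Numbers with `K` base-`m ^ k` digits, all of them block digits. -/
def towerSet (k m : ℕ) (D : Finset ℕ) : ℕ → Finset ℕ
  | 0 => {0}
  | K + 1 => (blockSet k m D ×ˢ towerSet k m D K).image (fun p => p.1 + m ^ k * p.2)

section general

variable {k m : ℕ} {D : Finset ℕ}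

theorem blockSet_lt (hk : 1 ≤ k) (hD : ∀ d ∈ D, d < m) {s : ℕ} (hs : s ∈ blockSet k m D) :
    s < m ^ k := by
  simp only [blockSet, mem_image, mem_product, mem_range, Prod.exists] at hs
  obtain ⟨d, e, ⟨hd, he⟩, rfl⟩ := hs
  have hdm := hD d hd
  have hmk : m ^ k = m * m ^ (k - 1) := by
    conv_lhs => rw [show k = (k - 1) + 1 by omega]
    rw [pow_succ, mul_comm]
  rw [hmk]
  have : m * (e + 1) ≤ m * m ^ (k - 1) := Nat.mul_le_mul_left m he
  nlinarith

theorem card_blockSet (hD : ∀ d ∈ D, d < m) :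
    (blockSet k m D).card = D.card * m ^ (k - 1) := by
  unfold blockSet
  rw [card_image_of_injOn, card_product, card_range]
  rintro ⟨d, e⟩ hp ⟨d', e'⟩ hp' h
  simp only [coe_product, Set.mem_prod, mem_coe, mem_range] at hp hp'
  simp only at h
  have hd := hD d hp.1
  have hd' := hD d' hp'.1
  have h1 : (d + m * e) % m = (d' + m * e') % m := by rw [h]
  rw [Nat.add_mul_mod_self_left, Nat.add_mul_mod_self_left, Nat.mod_eq_of_lt hd,
    Nat.mod_eq_of_lt hd'] at h1
  subst h1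
  have hm : 0 < m := by omega
  have h2 : m * e = m * e' := by omega
  have h3 : e = e' := Nat.eq_of_mul_eq_mul_left hm h2
  subst h3
  rfl

/-- Two block digits that differ by a `k`-th power residue modulo `m ^ k` are equal. -/
theorem blockSet_eq_of_modEq (hk : 1 ≤ k) (hm : Squarefree m) (hD : ∀ d ∈ D, d < m)
    (hres : ∀ a ∈ D, ∀ b ∈ D, ∀ y : ℕ, a ≡ b + y ^ k [MOD m] → a = b)
    {s s' y : ℕ} (hs : s ∈ blockSet k m D) (hs' : s' ∈ blockSet k m D)
    (h : s ≡ s' + y ^ k [MOD m ^ k]) : s = s' := by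
  have hslt := blockSet_lt hk hD hs
  have hs'lt := blockSet_lt hk hD hs'
  simp only [blockSet, mem_image, mem_product, mem_range, Prod.exists] at hs hs'
  obtain ⟨d, e, ⟨hd, -⟩, rfl⟩ := hs
  obtain ⟨d', e', ⟨hd', -⟩, rfl⟩ := hs'
  have hmk : m ∣ m ^ k := dvd_pow_self m (by omega)
  have h1 : d + m * e ≡ d' + m * e' + y ^ k [MOD m] := h.of_dvd hmk
  have h2 : d ≡ d' + y ^ k [MOD m] := by
    have ha : d + m * e ≡ d [MOD m] := by
      simp [Nat.ModEq, Nat.add_mul_mod_self_left]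
    have hb : d' + m * e' + y ^ k ≡ d' + y ^ k [MOD m] := by
      have : d' + m * e' + y ^ k = d' + y ^ k + m * e' := by ring
      rw [this]
      simp [Nat.ModEq, Nat.add_mul_mod_self_left]
    exact (ha.symm.trans h1).trans hb
  have hdd : d = d' := hres d hd d' hd' y h2
  subst hdd
  have h3 : m ∣ y ^ k := by
    have h4 : d + 0 ≡ d + y ^ k [MOD m] := by simpa using h2
    have h5 : 0 ≡ y ^ k [MOD m] := Nat.ModEq.add_left_cancel' d h4
    exact (Nat.modEq_zero_iff_dvd.mp h5.symm)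
  have h6 : m ∣ y :=
    (Squarefree.dvd_pow_iff_dvd hm (by omega)).mp h3
  have h7 : m ^ k ∣ y ^ k := pow_dvd_pow_of_dvd h6 k
  have h8 : d + m * e' + y ^ k ≡ d + m * e' [MOD m ^ k] := by
    obtain ⟨c, hc⟩ := h7
    rw [hc]
    simp [Nat.ModEq, Nat.add_mul_mod_self_left]
  exact Nat.ModEq.eq_of_lt_of_lt (h.trans h8) hslt hs'lt

theorem card_towerSet (hk : 1 ≤ k) (hD : ∀ d ∈ D, d < m) (K : ℕ) :
    (towerSet k m D K).card = (blockSet k m D).card ^ K := by
  induction K with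
  | zero => simp [towerSet]
  | succ K ih =>
    rw [towerSet, card_image_of_injOn, card_product, ih, pow_succ, mul_comm]
    rintro ⟨s, a⟩ hp ⟨s', a'⟩ hp' h
    simp only [coe_product, Set.mem_prod, mem_coe] at hp hp'
    simp only at h
    have hs := blockSet_lt hk hD hp.1
    have hs' := blockSet_lt hk hD hp'.1
    have h1 : (s + m ^ k * a) % m ^ k = (s' + m ^ k * a') % m ^ k := by rw [h]
    rw [Nat.add_mul_mod_self_left, Nat.add_mul_mod_self_left, Nat.mod_eq_of_lt hs,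
      Nat.mod_eq_of_lt hs'] at h1
    subst h1
    have hq : 0 < m ^ k := by omega
    have h2 : m ^ k * a = m ^ k * a' := by omega
    have h3 : a = a' := Nat.eq_of_mul_eq_mul_left hq h2
    subst h3
    rfl

theorem towerSet_lt (hk : 1 ≤ k) (hD : ∀ d ∈ D, d < m) (K : ℕ) :
    ∀ a ∈ towerSet k m D K, a < (m ^ k) ^ K := by
  induction K with
  | zero => simp [towerSet]
  | succ K ih =>
    intro a ha
    simp only [towerSet, mem_image, mem_product, Prod.exists] at ha
    obtain ⟨s, a', ⟨hs, ha'⟩, rfl⟩ := ha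
    have h1 := blockSet_lt hk hD hs
    have h2 := ih a' ha'
    have h3 : m ^ k * (a' + 1) ≤ m ^ k * (m ^ k) ^ K := Nat.mul_le_mul_left _ h2
    rw [pow_succ, mul_comm ((m ^ k) ^ K)]
    nlinarith

/-- No two elements of a tower set differ by a positive `k`-th power. -/
theorem towerSet_no_pow (hk : 1 ≤ k) (hm : Squarefree m) (hD : ∀ d ∈ D, d < m)
    (hres : ∀ a ∈ D, ∀ b ∈ D, ∀ y : ℕ, a ≡ b + y ^ k [MOD m] → a = b) (K : ℕ) :
    ∀ a ∈ towerSet k m D K, ∀ b ∈ towerSet k m D K, ∀ n : ℕ, 1 ≤ n → a ≠ b + n ^ k := by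
  induction K with
  | zero =>
    intro a ha b hb n hn h
    simp only [towerSet, mem_singleton] at ha hb
    subst ha hb
    have : 0 < n ^ k := Nat.pow_pos hn
    omega
  | succ K ih =>
    intro a ha b hb n hn h
    simp only [towerSet, mem_image, mem_product, Prod.exists] at ha hb
    obtain ⟨s, a', ⟨hs, ha'⟩, rfl⟩ := ha
    obtain ⟨s', b', ⟨hs', hb'⟩, rfl⟩ := hb
    have h1 : s ≡ s' + n ^ k [MOD m ^ k] := by
      have e1 : s + m ^ k * a' ≡ s [MOD m ^ k] := by
        simp [Nat.ModEq, Nat.add_mul_mod_self_left]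
      have e2 : s' + m ^ k * b' + n ^ k ≡ s' + n ^ k [MOD m ^ k] := by
        have : s' + m ^ k * b' + n ^ k = s' + n ^ k + m ^ k * b' := by ring
        rw [this]
        simp [Nat.ModEq, Nat.add_mul_mod_self_left]
      exact (e1.symm.trans (h ▸ Nat.ModEq.refl _)).trans e2
    have hss : s = s' := blockSet_eq_of_modEq hk hm hD hres hs hs' h1
    subst hss
    have h2 : m ^ k * a' = m ^ k * b' + n ^ k := by omega
    have h3 : m ^ k ∣ n ^ k := by
      have : n ^ k = m ^ k * a' - m ^ k * b' := by omega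
      rw [this]
      exact Nat.dvd_sub (dvd_mul_right _ _) (dvd_mul_right _ _)
    have h4 : m ∣ n := (Nat.pow_dvd_pow_iff (by omega)).mp h3
    obtain ⟨n', rfl⟩ := h4
    have hm0 : 0 < m := Nat.pos_of_ne_zero hm.ne_zero
    have hn' : 1 ≤ n' := by
      rcases Nat.eq_zero_or_pos n' with h0 | h0
      · subst h0; simp at hn
      · exact h0
    have hq : 0 < m ^ k := Nat.pow_pos hm0
    have h5 : m ^ k * a' = m ^ k * (b' + n' ^ k) := by
      rw [h2, mul_pow]; ring
    exact ih a' ha' b' hb' n' hn' (Nat.eq_of_mul_eq_mul_left hq h5)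

end general

/-- The fourteen digits modulo `91`. -/
def digits : Finset ℕ := {7, 11, 14, 18, 29, 33, 36, 40, 55, 58, 65, 80, 83, 87}

theorem digits_lt : ∀ d ∈ digits, d < 91 := by decide

theorem digits_res_aux :
    ∀ a ∈ digits, ∀ b ∈ digits, ∀ y ∈ range 91, (b + y ^ 3) % 91 = a % 91 → a = b := by
  decide +kernel

theorem digits_res : ∀ a ∈ digits, ∀ b ∈ digits, ∀ y : ℕ, a ≡ b + y ^ 3 [MOD 91] → a = b := by
  intro a ha b hb y h
  refine digits_res_aux a ha b hb (y % 91) (mem_range.mpr (Nat.mod_lt _ (by norm_num))) ?_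
  have h1 : (b + (y % 91) ^ 3) % 91 = (b + y ^ 3) % 91 := by
    rw [Nat.add_mod, Nat.pow_mod, Nat.mod_mod, ← Nat.pow_mod, ← Nat.add_mod]
  rw [h1]
  exact h.symm

theorem sqfree91 : Squarefree 91 := by
  rw [Nat.squarefree_iff_prime_squarefree]
  intro p hp h
  have h1 : p * p ≤ 91 := Nat.le_of_dvd (by norm_num) h
  have h2 : p ≤ 9 := by nlinarith
  have h3 : 2 ≤ p := hp.two_le
  interval_cases p <;> revert h <;> decide

theorem result :
    ∃ c : ℝ, 0 < c ∧ ∀ N : ℕ, 1 ≤ N →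
      ∃ A : Finset ℕ, (∀ a ∈ A, 1 ≤ a ∧ a ≤ N) ∧
        (∀ a ∈ A, ∀ b ∈ A, ∀ n : ℕ, 1 ≤ n → a ≠ b + n ^ 3) ∧
        c * (N : ℝ) ^ ((2 + Real.log 14 / Real.log 91) / 3) ≤ (A.card : ℝ) := by
  have hk : 1 ≤ 3 := by norm_num
  have hS : (blockSet 3 91 digits).card = 14 * 91 ^ 2 := by
    rw [card_blockSet digits_lt]; rfl
  refine ⟨1 / (14 * 91 ^ 2), by positivity, ?_⟩
  intro N hN
  obtain ⟨q, hq⟩ : ∃ q : ℕ, q = 91 ^ 3 := ⟨_, rfl⟩
  have hq1 : 1 < q := by rw [hq]; norm_num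
  have hqr : (q : ℝ) = (91 : ℝ) ^ (3 : ℕ) := by rw [hq]; norm_num
  obtain ⟨K, hK⟩ : ∃ K : ℕ, K = Nat.log q N := ⟨_, rfl⟩
  have hle : q ^ K ≤ N := by rw [hK]; exact Nat.pow_log_le_self q (by omega)
  have hlt : N < q ^ (K + 1) := by rw [hK]; exact Nat.lt_pow_succ_log_self hq1 N
  refine ⟨(towerSet 3 91 digits K).image (· + 1), ?_, ?_, ?_⟩
  · intro a ha
    simp only [mem_image] at ha
    obtain ⟨a', ha', rfl⟩ := ha
    have h1 : a' < q ^ K := by
      rw [hq]; exact towerSet_lt hk digits_lt K a' ha'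
    constructor
    · omega
    · omega
  · intro a ha b hb n hn h
    simp only [mem_image] at ha hb
    obtain ⟨a', ha', rfl⟩ := ha
    obtain ⟨b', hb', rfl⟩ := hb
    exact towerSet_no_pow hk sqfree91 digits_lt digits_res K a' ha' b' hb' n hn (by omega)
  · rw [card_image_of_injective _ (fun x y h => by simpa using h),
      card_towerSet hk digits_lt, hS]
    obtain ⟨γ, hγ⟩ : ∃ γ : ℝ, γ = (2 + Real.log 14 / Real.log 91) / 3 := ⟨_, rfl⟩
    rw [← hγ]
    have hlog91 : 0 < Real.log 91 := Real.log_pos (by norm_num)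
    have hlog14 : 0 < Real.log 14 := Real.log_pos (by norm_num)
    have hγ0 : 0 ≤ γ := by rw [hγ]; positivity
    have hq0 : (0 : ℝ) < (q : ℝ) := by exact_mod_cast (by omega : 0 < q)
    -- `q ^ γ = 14 * 91 ^ 2`
    have hqγ : (q : ℝ) ^ γ = 14 * 91 ^ 2 := by
      rw [Real.rpow_def_of_pos hq0, hqr, Real.log_pow]
      have h3 : ((3 : ℕ) : ℝ) * Real.log 91 * γ = Real.log 14 + (Real.log 91 + Real.log 91) := by
        rw [hγ]; field_simp; ring
      rw [h3, Real.exp_add, Real.exp_add, Real.exp_log (by norm_num), Real.exp_log (by norm_num)]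
      ring
    have hNle : (N : ℝ) ≤ (q : ℝ) ^ (K + 1) := by exact_mod_cast hlt.le
    have h1 : (N : ℝ) ^ γ ≤ ((q : ℝ) ^ (K + 1)) ^ γ :=
      Real.rpow_le_rpow (Nat.cast_nonneg N) hNle hγ0
    have h2 : ((q : ℝ) ^ (K + 1)) ^ γ = ((14 : ℝ) * 91 ^ 2) ^ (K + 1) := by
      rw [← Real.rpow_natCast, ← Real.rpow_mul hq0.le, mul_comm,
        Real.rpow_mul hq0.le, hqγ, Real.rpow_natCast]
    rw [h2] at h1
    have hpos : (0 : ℝ) < 14 * 91 ^ 2 := by positivity
    have h3 : (1 : ℝ) / (14 * 91 ^ 2) * (N : ℝ) ^ γ ≤ ((14 : ℝ) * 91 ^ 2) ^ K := by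
      rw [div_mul_eq_mul_div, one_mul, div_le_iff₀ hpos]
      calc (N : ℝ) ^ γ ≤ ((14 : ℝ) * 91 ^ 2) ^ (K + 1) := h1
        _ = ((14 : ℝ) * 91 ^ 2) ^ K * (14 * 91 ^ 2) := by rw [pow_succ]
    have hc : ((14 * 91 ^ 2 : ℕ) : ℝ) = 14 * 91 ^ 2 := by norm_num
    rw [Nat.cast_pow, hc]
    exact h3

end Vale.Agent.Results.P042.CubeDifferences
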