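import Mathlib
import Vale.Agent.Results.P042.CubeDifferences

/-!
P042 (sets avoiding intersective polynomial differences), direct form of
`P042.CubeDifferences` for the quantity `r_h(N)` of the problem file with `h(x) = x^3`:
for every `N ≥ 1` the maximum size `r` of a subset of `{1, …, N}` no two of whose elements
differ by a positive cube exists and satisfies `r ≥ c * N ^ ((2 + log 14 / log 91) / 3)`.
Only Mathlib notions occur in the statement.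
-/

namespace Vale.Agent.Results.P042.CubeDifferencesMaxSize

/-- `r_{x^3}(N) ≥ c N^γ` with `γ = (2 + log 14 / log 91) / 3 = 0.8616…`, where `r_{x^3}(N)` is
the greatest cardinality of a set `A ⊆ {1, …, N}` with `a ≠ b + n^3` for all `a, b ∈ A`,
`n ≥ 1`. -/
theorem result : ∃ c : ℝ, 0 < c ∧ ∀ N : ℕ, 1 ≤ N → ∃ r : ℕ,
    IsGreatest {m : ℕ | ∃ A : Finset ℕ, (∀ a ∈ A, 1 ≤ a ∧ a ≤ N) ∧
        (∀ a ∈ A, ∀ b ∈ A, ∀ n : ℕ, 1 ≤ n → a ≠ b + n ^ 3) ∧ A.card = m} r ∧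
      c * (N : ℝ) ^ ((2 + Real.log 14 / Real.log 91) / 3) ≤ (r : ℝ) := by
  obtain ⟨c, hc, h⟩ := Vale.Agent.Results.P042.CubeDifferences.result
  refine ⟨c, hc, fun N hN => ?_⟩
  obtain ⟨A, hA1, hA2, hA3⟩ := h N hN
  set S : Set ℕ := {m : ℕ | ∃ A : Finset ℕ, (∀ a ∈ A, 1 ≤ a ∧ a ≤ N) ∧
        (∀ a ∈ A, ∀ b ∈ A, ∀ n : ℕ, 1 ≤ n → a ≠ b + n ^ 3) ∧ A.card = m} with hS
  have hne : S.Nonempty := ⟨A.card, A, hA1, hA2, rfl⟩
  have hbdd : BddAbove S := by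
    refine ⟨N, ?_⟩
    rintro m ⟨B, hB1, -, rfl⟩
    have hsub : B ⊆ Finset.Icc 1 N := fun a ha => Finset.mem_Icc.mpr (hB1 a ha)
    simpa using Finset.card_le_card hsub
  refine ⟨sSup S, ⟨Nat.sSup_mem hne hbdd, fun m hm => le_csSup hbdd hm⟩, ?_⟩
  have hle : A.card ≤ sSup S := le_csSup hbdd ⟨A, hA1, hA2, rfl⟩
  have hle' : (A.card : ℝ) ≤ ((sSup S : ℕ) : ℝ) := by exact_mod_cast hle
  exact hA3.trans hle'

end Vale.Agent.Results.P042.CubeDifferencesMaxSize
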